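import Mathlib

/-! P290Z, block O, step HYP: the argument in coordinates. -/

open Set Filter Topology

namespace Vale.Agent.P290Z.Orb.HypA

/-- rationally independent pairs -/
def Ind (a b : ℝ) : Prop := ∀ p q : ℚ, p * a + q * b = 0 → p = 0 ∧ q = 0

theorem Ind.symm {a b : ℝ} (h : Ind a b) : Ind b a := fun p q e =>
  (h q p (by rw [← e]; ring)).symm

theorem Ind.ne {a b : ℝ} (h : Ind a b) : a ≠ 0 := fun e => by
  simpa using (h 1 0 (by simp [e])).1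

theorem Ind.add {a b : ℝ} (h : Ind a b) (n : ℤ) : Ind a (b + n * a) := fun p q e => by
  obtain ⟨h1, h2⟩ := h (p + q * n) q (by rw [← e]; push_cast; ring)
  exact ⟨by simpa [h2] using h1, h2⟩

theorem Ind.of {a b : ℝ} (ha : a ≠ 0) (h : ∀ q : ℚ, b ≠ q * a) : Ind a b := fun p q e => by
  have hq : q = 0 := by
    by_contra hq
    have : (q : ℝ) ≠ 0 := by exact_mod_cast hq
    refine h (-p / q) ?_
    push_cast
    field_simp
    linarith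
  exact ⟨by simpa [hq, ha] using e, hq⟩

theorem Ind.dense {a b : ℝ} (h : Ind a b) : DenseRange fun n : ℤ × ℤ => n.1 * a + n.2 * b := by
  have h1 : Irrational (a / b) := by
    rintro ⟨r, hr⟩
    have := h.symm.ne
    have := (h 1 (-r) (by push_cast; rw [hr]; field_simp; ring)).1
    simp at this
  refine (dense_addSubgroupClosure_pair_iff.2 h1).mono fun z hz => ?_
  obtain ⟨m, n, e⟩ := AddSubgroup.mem_closure_pair.1 hz
  exact ⟨(m, n), by simpa using e⟩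

theorem exists_red (a : ℝ) {b : ℝ} (hb : b ≠ 0) : ∃ n : ℤ, |a + n * b| ≤ |b| / 2 := by
  refine ⟨-round (a / b), ?_⟩
  have h := abs_sub_round (a / b)
  rw [show a + ((-round (a / b) : ℤ) : ℝ) * b = (a / b - round (a / b)) * b by
    push_cast; field_simp; ring, abs_mul]
  nlinarith [abs_nonneg b]

variable {M : Type} [NormedAddCommGroup M] [NormedSpace ℝ M]

/-- a closed set of points of the hyperboloid, in the coordinates `c₀ c₁ i₀ i₁ m` -/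
structure Sys (Y : ℝ → ℝ → ℝ → ℝ → M → Prop) (O : Set M) (q l : M → ℝ) (D : ℝ) (x : M)
    (s : ℝ) : Prop where
  cl : IsClosed {p : (ℝ × ℝ) × (ℝ × ℝ) × M | Y p.1.1 p.1.2 p.2.1.1 p.2.1.2 p.2.2}
  cq : Continuous q
  hs : s ≠ 0
  hl : ∀ m (ε : ℝ), l (m + ε • x) = l m + ε * s
  hx : ∀ m ∈ O, ∀ ε : ℝ, m + ε • x ∈ O
  hq : ∀ {c₀ c₁ i₀ i₁ m}, Y c₀ c₁ i₀ i₁ m → q m + 2 * (c₀ * i₀ + c₁ * i₁) = D
  mA : ∀ {c₀ c₁ i₀ i₁ m} (n : ℤ), Y c₀ c₁ i₀ i₁ m → Y c₀ (c₁ + n * c₀) (i₀ - n * i₁) i₁ m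
  mB : ∀ {c₀ c₁ i₀ i₁ m} (n : ℤ), Y c₀ c₁ i₀ i₁ m → Y (c₀ + n * c₁) c₁ i₀ (i₁ - n * i₀) m
  mC : ∀ {c₀ c₁ i₀ i₁ m} (n : ℤ), Y c₀ c₁ i₀ i₁ m → Y c₀ c₁ (i₀ - n * c₁) (i₁ + n * c₀) m
  mD : ∀ {c₀ i₀ i₁ m} (n : ℤ), Y c₀ 0 i₀ i₁ m → Y c₀ 0 i₀ (i₁ + n * l m) m
  hU : ∀ {c₀ c₁ i₀ i₁ m}, Ind c₀ c₁ → Y c₀ c₁ i₀ i₁ m → ∀ m' ∈ O, ∃ i₀ i₁, Y c₀ c₁ i₀ i₁ m'
  h0 : ∃ c₀ c₁ i₀ i₁ m, Ind c₀ c₁ ∧ Y c₀ c₁ i₀ i₁ m

namespace Sys
variable {Y : ℝ → ℝ → ℝ → ℝ → M → Prop} {O : Set M} {q l : M → ℝ} {D : ℝ} {x : M} {s : ℝ}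
  (S : Sys Y O q l D x s)
include S

theorem small : ∃ K : ℝ, ∀ k : ℕ, ∃ c₀ c₁ i₀ i₁ m, Ind c₀ c₁ ∧ Y c₀ c₁ i₀ i₁ m ∧
    |c₁| ≤ K * (1 / 2) ^ k := by
  obtain ⟨c₀, c₁, i₀, i₁, m, h1, h2⟩ := S.h0
  refine ⟨|c₁|, fun k => ?_⟩
  induction k with
  | zero => exact ⟨c₀, c₁, i₀, i₁, m, h1, h2, by simp⟩
  | succ k ih =>
    obtain ⟨a, b, j₀, j₁, m', a1, a2, a3⟩ := ih
    obtain ⟨n, hn⟩ := exists_red a a1.symm.ne
    have b1 := (a1.symm.add n).symm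
    obtain ⟨n', hn'⟩ := exists_red b b1.ne
    refine ⟨_, _, _, _, _, b1.add n', S.mA n' (S.mB n a2), ?_⟩
    rw [pow_succ]
    nlinarith [abs_nonneg b]

theorem near (u : ℝ) {ε : ℝ} (hε : 0 < ε) : ∃ c₀ c₁ i₀ i₁ m, Ind c₀ c₁ ∧ Y c₀ c₁ i₀ i₁ m ∧
    |c₁| < ε ∧ |c₀ - u| < ε := by
  obtain ⟨K, hK⟩ := S.small
  have h : Tendsto (fun k : ℕ => K * (1 / 2 : ℝ) ^ k) atTop (𝓝 (K * 0)) :=
    (tendsto_pow_atTop_nhds_zero_of_lt_one (by norm_num) (by norm_num)).const_mul K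
  obtain ⟨k, hk⟩ := (h.eventually (gt_mem_nhds (show K * 0 < ε by simpa using hε))).exists
  obtain ⟨a, b, j₀, j₁, m, a1, a2, a3⟩ := hK k
  obtain ⟨n, hn⟩ := exists_red (a - u) a1.symm.ne
  refine ⟨_, _, _, _, _, (a1.symm.add n).symm, S.mB n a2, a3.trans_lt hk, ?_⟩
  rw [show a + n * b - u = a - u + n * b by ring]
  linarith [abs_nonneg b]

theorem lim {u : ℝ} (hu : u ≠ 0) {m : M} (hm : m ∈ O) : ∃ i₁, Y u 0 ((D - q m) / (2 * u)) i₁ m := by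
  have h : ∀ n : ℕ, ∃ c₀ c₁ i₁ : ℝ, |c₁| < 1 / (n + 1) ∧ |c₀ - u| < 1 / (n + 1) ∧
      i₁ ∈ Icc (-(|u| + 1)) (|u| + 1) ∧ Y c₀ c₁ ((D - q m - 2 * c₁ * i₁) / (2 * c₀)) i₁ m := by
    intro n
    obtain ⟨a, b, j₀, j₁, m', a1, a2, a3, a4⟩ := S.near u (Nat.one_div_pos_of_nat (n := n))
    obtain ⟨k₀, k₁, hk⟩ := S.hU a1 a2 m hm
    obtain ⟨r, hr⟩ := exists_red k₁ a1.ne
    have b1 := S.mC r hk
    have b2 := S.hq b1
    have b3 : (1 : ℝ) / (n + 1) ≤ 1 := by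
      rw [div_le_one (by positivity)]; linarith [n.cast_nonneg (α := ℝ)]
    have b4 := a1.ne
    refine ⟨a, b, k₁ + r * a, a3, a4, abs_le.1 ?_, ?_⟩
    · have := abs_sub_abs_le_abs_sub a u
      linarith [abs_nonneg a]
    · rwa [show (D - q m - 2 * b * (k₁ + r * a)) / (2 * a) = k₀ - r * b by
        rw [← b2]; field_simp; ring]
  choose a b j h1 h2 h3 h4 using h
  obtain ⟨i, -, φ, hφ, hi⟩ := isCompact_Icc.tendsto_subseq h3
  have t0 := tendsto_one_div_add_atTop_nhds_zero_nat (𝕜 := ℝ)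
  have tb : Tendsto (b ∘ φ) atTop (𝓝 0) := (tendsto_zero_iff_abs_tendsto_zero _ |>.2
    (squeeze_zero (fun _ => abs_nonneg _) (fun n => (h1 n).le) t0)).comp hφ.tendsto_atTop
  have ta : Tendsto (a ∘ φ) atTop (𝓝 u) := (tendsto_sub_nhds_zero_iff.1
    (tendsto_zero_iff_abs_tendsto_zero _ |>.2
      (squeeze_zero (fun _ => abs_nonneg _) (fun n => (h2 n).le) t0))).comp hφ.tendsto_atTop
  have tc := ((tendsto_const_nhds (x := D - q m)).sub ((tb.const_mul 2).mul hi)).div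
    (ta.const_mul 2) (by simpa using hu)
  have := S.cl.mem_of_tendsto ((ta.prodMk_nhds tb).prodMk_nhds ((tc.prodMk_nhds hi).prodMk_nhds
    (tendsto_const_nhds (x := m)))) (Eventually.of_forall fun n => h4 (φ n))
  exact ⟨i, by simpa using this⟩

theorem axis {u : ℝ} (hu : u ≠ 0) {m : M} (hm : m ∈ O) (i : ℝ) :
    Y u 0 ((D - q m) / (2 * u)) i m := by
  have h1 : ∀ m ∈ O, (∀ r : ℚ, l m ≠ r * u) → Y u 0 ((D - q m) / (2 * u)) i m := fun m hm h => by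
    obtain ⟨j, hj⟩ := S.lim hu hm
    have hd := (Homeomorph.addLeft j).surjective.denseRange.comp (Ind.of hu h).dense
      (Homeomorph.addLeft j).continuous
    refine hd.induction_on (p := fun i => Y u 0 ((D - q m) / (2 * u)) i m) i
      (S.cl.preimage (f := fun i : ℝ => ((u, 0), ((D - q m) / (2 * u), i), m)) (by fun_prop))
      fun n => ?_
    have := S.mD n.2 (show Y u 0 _ (j + n.1 * u) m by simpa using S.mC n.1 hj)
    rwa [add_assoc] at this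
  have h2 : Dense (range fun r : ℚ => (r * u - l m) / s)ᶜ := (countable_range _).dense_compl ℝ
  have h3 : IsClosed {ε : ℝ | Y u 0 ((D - q (m + ε • x)) / (2 * u)) i (m + ε • x)} :=
    S.cl.preimage (f := fun ε : ℝ => ((u, 0), ((D - q (m + ε • x)) / (2 * u), i), m + ε • x))
      (by have := S.cq; fun_prop)
  have h4 : (range fun r : ℚ => (r * u - l m) / s)ᶜ ⊆ _ := fun ε hε =>
    show ε ∈ {ε : ℝ | Y u 0 ((D - q (m + ε • x)) / (2 * u)) i (m + ε • x)} from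
    h1 _ (S.hx m hm ε) fun r hr => hε ⟨r, by
      have := S.hs
      rw [S.hl] at hr
      simp only
      rw [← hr]; field_simp; ring⟩
  simpa using h3.closure_subset_iff.2 h4 (h2 0)

/-- all the points with the given `c` -/
def W (_ : Sys Y O q l D x s) (c₀ c₁ : ℝ) : Prop :=
  ∀ i₀ i₁, ∀ m ∈ O, q m + 2 * (c₀ * i₀ + c₁ * i₁) = D → Y c₀ c₁ i₀ i₁ m

theorem WA {a b : ℝ} (h : S.W a b) (n : ℤ) : S.W a (b + n * a) := fun i₀ i₁ m hm e => by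
  simpa using S.mA n (h (i₀ + n * i₁) i₁ m hm (by rw [← e]; ring))

theorem WB {a b : ℝ} (h : S.W a b) (n : ℤ) : S.W (a + n * b) b := fun i₀ i₁ m hm e => by
  simpa using S.mB n (h i₀ (i₁ + n * i₀) m hm (by rw [← e]; ring))

theorem W0 {u : ℝ} (hu : u ≠ 0) : S.W u 0 := fun i₀ i₁ m hm e => by
  have := S.axis hu hm i₁
  rwa [show (D - q m) / (2 * u) = i₀ by rw [← e]; field_simp; ring] at this

theorem Wint (a b : ℤ) : (a ≠ 0 ∨ b ≠ 0) → ∀ u : ℝ, u ≠ 0 → S.W (u * a) (u * b) ∧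
    S.W (u * b) (u * a) := by
  induction a, b using EuclideanDomain.GCD.induction with
  | H0 b =>
    intro h u hu
    have h1 := S.W0 (mul_ne_zero hu (Int.cast_ne_zero.2 (h.resolve_left (by simp))))
    exact ⟨by simpa using S.WB (S.WA h1 1) (-1), by simpa using h1⟩
  | H1 a b ha ih =>
    intro _ u hu
    obtain ⟨h1, h2⟩ := ih (Or.inr ha) u hu
    have e : u * (b % a : ℤ) + (b / a : ℤ) * (u * a) = u * b := by
      rw [← congrArg (Int.cast : ℤ → ℝ) (Int.emod_add_mul_ediv b a)]; push_cast; ring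
    exact ⟨e ▸ S.WA h2 (b / a), e ▸ S.WB h1 (b / a)⟩

theorem Wne {a : ℝ} (ha : a ≠ 0) (b : ℝ) : S.W a b := fun i₀ i₁ m hm e => by
  have hd := (Homeomorph.mulLeft₀ a ha).surjective.denseRange.comp (Rat.denseRange_cast (𝕜 := ℝ))
    (Homeomorph.mulLeft₀ a ha).continuous
  have := hd.induction_on (p := fun t => Y a t (i₀ + (b - t) * i₁ / a) i₁ m) b
    (S.cl.preimage (f := fun t : ℝ => ((a, t), (i₀ + (b - t) * i₁ / a, i₁), m)) (by fun_prop))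
    fun r => by
      have h0 : (r.den : ℝ) ≠ 0 := by exact_mod_cast r.den_ne_zero
      have h1 := (S.Wint r.den r.num (Or.inl (by exact_mod_cast r.den_ne_zero)) (a / r.den)
        (div_ne_zero ha h0)).1
      rw [show a / r.den * ((r.den : ℤ) : ℝ) = a by push_cast; field_simp,
        show a / r.den * (r.num : ℝ) = a * r by rw [Rat.cast_def]; field_simp] at h1
      refine h1 _ _ m hm ?_
      rw [← e]
      simp only [Function.comp, Homeomorph.coe_mulLeft₀]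
      field_simp
      ring
  simpa using this

theorem all {a b : ℝ} (h : a ≠ 0 ∨ b ≠ 0) : S.W a b := by
  by_cases ha : a = 0
  · simpa [ha] using S.WB (S.Wne (h.resolve_left (by simpa using ha)) b) (-1)
  · exact S.Wne ha b

end Sys

end Vale.Agent.P290Z.Orb.HypA
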